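import Vale.Agent.P280.R2.H730.Fin

namespace Vale.Agent.Results.P280.ScalarAutomorphism

open Vale.Agent.P280.S Vale.Agent.P280.R2.H730

/-- Let `X` be a projectively normal projective manifold. `X` has an automorphism `g` with a fixed
point such that the only eigenvalue `c` of its differential there is not a root of unity, if and
only if `X` has a `ℂ^*`-action with a fixed point at which all its tangent weights are one. If the
tangent bundle of `X` is nef and there is such a `g`, then `X` is homogeneous, and it is symmetric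
at each of its points. -/
theorem result {R : Type} [CommRing R] [Algebra ℂ R] (𝒜 : ℕ → Submodule ℂ R) [GradedAlgebra 𝒜]
    (hX : IsProjectiveManifold 𝒜) :
    ((∃ (g : R ≃ₐ[ℂ] R) (x : R →ₐ[ℂ] ℂ) (c : ℂ), ¬ IsVertex 𝒜 x ∧ c ≠ 0 ∧
        (∀ n : ℕ, 0 < n → c ^ n ≠ 1) ∧ IsOnlyEigenvalue 𝒜 g x c) ↔ HasHomothety 𝒜) ∧
      (NefOnRationalCurves 𝒜 → (∃ (g : R ≃ₐ[ℂ] R) (x : R →ₐ[ℂ] ℂ) (c : ℂ), ¬ IsVertex 𝒜 x ∧
        c ≠ 0 ∧ (∀ n : ℕ, 0 < n → c ^ n ≠ 1) ∧ IsOnlyEigenvalue 𝒜 g x c) →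
        IsHomogeneousManifold 𝒜 ∧ IsTransitive 𝒜 ∧ IsSymmetricManifold 𝒜) := by
  have key : (∃ (g : R ≃ₐ[ℂ] R) (x : R →ₐ[ℂ] ℂ) (c : ℂ), ¬ IsVertex 𝒜 x ∧ c ≠ 0 ∧
      (∀ n : ℕ, 0 < n → c ^ n ≠ 1) ∧ IsOnlyEigenvalue 𝒜 g x c) → HasHomothety 𝒜 := by
    rintro ⟨g, x, c, hx0, hc, hc1, hg⟩
    exact hasHomothety_of_eigenvalue hX hx0 hg hc hc1
  refine ⟨⟨key, fun h => ?_⟩, fun hN h => (characterization hX hN).2 (key h)⟩
  obtain ⟨g, x, hx0, hg⟩ := eigenvalue_of_hasHomothety hX h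
  refine ⟨g, x, 2, hx0, two_ne_zero, fun n hn => ?_, hg⟩
  intro h1
  have h2 : ((2 ^ n : ℕ) : ℂ) = (1 : ℕ) := by push_cast; exact h1
  have h3 : 2 ^ n = 1 := by exact_mod_cast h2
  exact absurd h3 (by rw [Nat.pow_eq_one]; omega)

end Vale.Agent.Results.P280.ScalarAutomorphism
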