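import Vale.Agent.P280.S.H980.Sym

namespace Vale.Agent.Results.P280.SymmetricCharacterization

open Vale.Agent.P280.S

/-- Let `X` be a projectively normal manifold with nef tangent bundle. There are a point `x`, a
closed subset `Y` and a degree `e` such that `x` is not joined to `Y` by chains of rational curves
of total degree less than `e` and such that for general `z` there is exactly one rational curve
`f` of degree `e` with `f(0) = x`, `f(1) = z`, `f(∞) ∈ Y`, if and only if `X` has a `ℂ^*`-action
with a fixed point at which all its tangent weights are one. In this case `X` is homogeneous, and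
it is symmetric at each of its points. -/
theorem result {R : Type} [CommRing R] [Algebra ℂ R] (𝒜 : ℕ → Submodule ℂ R) [GradedAlgebra 𝒜]
    (hX : IsProjectiveManifold 𝒜) (hN : NefOnRationalCurves 𝒜) :
    ((∃ (x : R →ₐ[ℂ] ℂ) (J : Set R) (e : ℕ), IsGood 𝒜 x J e) ↔ HasHomothety 𝒜) ∧
      (HasHomothety 𝒜 → IsHomogeneousManifold 𝒜 ∧ IsTransitive 𝒜 ∧ IsSymmetricManifold 𝒜) :=
  characterization hX hN

end Vale.Agent.Results.P280.SymmetricCharacterization
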